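import Mathlib

/-!
The space of unimodular lattices, orders in totally real fields and their packets of torus orbits.
-/

namespace Vale.Agent.P007

open Matrix MeasureTheory
open scoped nonZeroDivisors

noncomputable section

/-- `SL_n(ℝ)`. -/
abbrev G (n : ℕ) : Type := Matrix.SpecialLinearGroup (Fin n) ℝ

/-- `SL_n(ℤ)` as a subgroup of `SL_n(ℝ)`. -/
def Gam (n : ℕ) : Subgroup (G n) := (Matrix.SpecialLinearGroup.map (Int.castRingHom ℝ)).range

/-- `X_n = SL_n(ℤ) \ SL_n(ℝ)`: orbits of left multiplication. -/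
def X (n : ℕ) : Type := MulAction.orbitRel.Quotient (Gam n) (G n)

/-- the quotient topology -/
instance X.top (n : ℕ) : TopologicalSpace (X n) :=
  inferInstanceAs (TopologicalSpace (Quotient (MulAction.orbitRel (Gam n) (G n))))

/-- the Borel sets -/
instance X.meas (n : ℕ) : MeasurableSpace (X n) := borel (X n)

/-- the class of a matrix -/
def mk {n : ℕ} (g : G n) : X n := Quotient.mk _ g

/-- the right action of `SL_n(ℝ)` -/
def act {n : ℕ} (a : G n) : X n → X n :=
  Quotient.map (· * a) fun _ _ ⟨γ, h⟩ => ⟨γ, (mul_assoc _ _ _).symm.trans (congrArg (· * a) h)⟩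

/-- the lattice `ℤ^n g` of row vectors attached to the point `SL_n(ℤ) g` -/
def lat {n : ℕ} (x : X n) : Set (Fin n → ℝ) :=
  {v | ∃ g : G n, mk g = x ∧ ∃ k : Fin n → ℤ, v = (fun i => (k i : ℝ)) ᵥ* (g : Matrix _ _ ℝ)}

/-- invariant probability measures on `X_n` -/
def IsHaarProb {n : ℕ} (m : Measure (X n)) : Prop :=
  IsProbabilityMeasure m ∧ ∀ a : G n, m.map (act a) = m

/-- An order in a number field of degree `n`: a subring spanned over `ℤ` by a `ℚ`-basis. -/
structure Order (K : Type) [Field K] [NumberField K] (n : ℕ) where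
  /-- the ring -/
  O : Subring K
  /-- a `ℤ`-basis of the ring -/
  b : Module.Basis (Fin n) ℚ K
  span_eq : (O : Set K) = Submodule.span ℤ (Set.range b)

variable {K : Type} [Field K] [NumberField K] {n : ℕ}

/-- the discriminant of the order -/
def Order.disc (o : Order K n) : ℚ := Algebra.discr ℚ o.b

/-- The union of the orbits `Λ_I w A_n` over proper invertible fractional ideals `I` and sign
matrices `w`; the scalar `c` is forced by the covolume. -/
def packet (o : Order K n) (σ : Fin n ≃ (K →+* ℝ)) : Set (X n) :=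
  {x | ∃ I : FractionalIdeal o.O⁰ K, {α : K | ∀ β ∈ I, α * β ∈ I} = o.O ∧ (∃ J, I * J = 1) ∧
    ∃ (c : ℝ) (w u : Fin n → ℝ), 0 < c ∧ (∀ j, w j = 1 ∨ w j = -1) ∧ ∑ j, u j = 0 ∧
      lat x = {v | ∃ α ∈ I, v = fun j => c * σ j α * w j * Real.exp (u j)}}

/-- the element `diag (e^{u_1}, …, e^{u_m}, e^{-u_1 - … - u_m})` of `A_{m+1}` -/
def tor {m : ℕ} (u : Fin m → ℝ) : G (m + 1) :=
  ⟨diagonal fun j => Real.exp (Fin.snoc (α := fun _ => ℝ) u (-∑ i, u i) j), by
    rw [det_diagonal, ← Real.exp_sum, Fin.sum_univ_castSucc]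
    simp⟩

/-- The packet measure: `R` is a set of representatives of the orbits in the packet, `D x` is a
fundamental domain parametrising the orbit of `x`, so `volume (D x)` is the volume of the orbit. -/
def IsPacketMeasure {m : ℕ} (o : Order K (m + 1)) (σ : Fin (m + 1) ≃ (K →+* ℝ))
    (μ : Measure (X (m + 1))) : Prop :=
  ∃ (R : Finset (X (m + 1))) (D : X (m + 1) → Set (Fin m → ℝ)),
    (packet o σ = ⋃ x ∈ R, Set.range fun u => act (tor u) x) ∧
    (∀ x ∈ R, ∀ y ∈ R, (∃ u, act (tor u) x = y) → x = y) ∧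
    (∀ x ∈ R, MeasurableSet (D x) ∧
      Set.BijOn (fun u => act (tor u) x) (D x) (Set.range fun u => act (tor u) x)) ∧
    μ = (∑ x ∈ R, volume (D x))⁻¹ • ∑ x ∈ R, (volume.restrict (D x)).map fun u => act (tor u) x

end

end Vale.Agent.P007
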